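import Vale.Agent.P121.Measure

/-!
# A three-marginal Coulomb problem with no optimal Monge plan
-/

open MeasureTheory Vale.Agent.P121

namespace Vale.Agent.Results.P121.MongeFails

theorem result : ∃ μ : Measure Pt, IsProbabilityMeasure μ ∧ μ ≪ volume ∧ value μ ≠ ⊤ ∧
    ¬ HasOptimalMongePlan μ :=
  ⟨muEx, inferInstance, muEx_ac, value_ne_top, no_monge⟩

end Vale.Agent.Results.P121.MongeFails
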